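import Vale.Agent.P227.Lp.Defs

/-!
# P227: sections of the boundary of a polytope

The colour of a facet is constant along a plane section that misses all separating edges.
-/

namespace Vale.Agent.P227.Lp.Cut

open MeasureTheory Set Filter Topology Matrix Function

noncomputable section

variable {N : ℕ} {ν : Fin N → V3}

/-- A facet of `W` is on at `x`. -/
def On (ν : Fin N → V3) (W : Finset (Fin N)) (x : V3) : Prop :=
  x ∈ body ν 1 ∧ ∃ i ∈ W, |ν i ⬝ᵥ x| = 1

/-- The sign of a half space. -/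
def sgn (b : Bool) : ℝ := if b then 1 else -1

theorem sgn_mul_le {b : Bool} {a : ℝ} : sgn b * a ≤ |a| := by
  cases b <;> simp [sgn, le_abs_self, neg_le_abs]

theorem exists_sgn (a : ℝ) : ∃ b, sgn b * a = |a| := by
  rcases abs_choice a with h | h
  · exact ⟨true, by simp [sgn, h]⟩
  · exact ⟨false, by simp [sgn, h]⟩

/-- In a plane through an inner point, the colours are separated by the common points. -/
theorem section_colour (hν : Fam ν) {p u v : V3} (hp : ∀ i, |ν i ⬝ᵥ p| < 1)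
    (hind : ∀ w : ℝ × ℝ, w.1 • u + w.2 • v = 0 → w = 0) (U : Finset (Fin N))
    (hsep : ∀ w : ℝ × ℝ, ¬(On ν U (p + (w.1 • u + w.2 • v)) ∧ On ν Uᶜ (p + (w.1 • u + w.2 • v))))
    {w₁ w₂ : ℝ × ℝ} (h₁ : On ν U (p + (w₁.1 • u + w₁.2 • v)))
    (h₂ : On ν Uᶜ (p + (w₂.1 • u + w₂.2 • v))) : False := by
  have hden : ∀ k : Fin N × Bool, 0 < 1 - sgn k.2 * (ν k.1 ⬝ᵥ p) := fun k => by
    linarith [hp k.1, sgn_mul_le (b := k.2) (a := ν k.1 ⬝ᵥ p)]
  set r : Fin N × Bool → ℝ × ℝ → ℝ :=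
    fun k w => sgn k.2 * (ν k.1 ⬝ᵥ (w.1 • u + w.2 • v)) / (1 - sgn k.2 * (ν k.1 ⬝ᵥ p)) with hr
  set P : Finset (Fin N) → Set (ℝ × ℝ) := fun W => {w | ∃ i ∈ W, ∃ b, ∀ k, r k w ≤ r (i, b) w} with hP
  have hclosed : ∀ W, IsClosed (P W) := fun W => by
    have e : P W = ⋃ i ∈ W, ⋃ b, ⋂ k, {w | r k w ≤ r (i, b) w} := by
      ext w
      simp [P]
    rw [e]
    refine W.finite_toSet.isClosed_biUnion fun i _ => isClosed_iUnion_of_finite fun b =>
      isClosed_iInter fun k => isClosed_le ?_ ?_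
    · simp only [hr]
      fun_prop
    · simp only [hr]
      fun_prop
  -- a boundary point is where its facet is largest
  have hmem : ∀ (W : Finset (Fin N)) (w : ℝ × ℝ), On ν W (p + (w.1 • u + w.2 • v)) →
      w ∈ ({0}ᶜ : Set (ℝ × ℝ)) ∩ P W := by
    rintro W w ⟨hb, i, hi, habs⟩
    refine ⟨fun h0 => ?_, i, hi, ?_⟩
    · rw [mem_singleton_iff] at h0
      simp [h0, (hp i).ne] at habs
    obtain ⟨b, hbs⟩ := exists_sgn (ν i ⬝ᵥ (p + (w.1 • u + w.2 • v)))
    rw [habs, dotProduct_add, mul_add] at hbs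
    refine ⟨b, fun k => ?_⟩
    have h1 := (sgn_mul_le (b := k.2)).trans (hb k.1)
    rw [dotProduct_add, mul_add, Pi.one_apply] at h1
    simp only [hr]
    rw [div_le_div_iff₀ (hden k) (hden (i, b))]
    have hk := hden k
    have hi' := hden (i, b)
    simp only at hi'
    nlinarith
  have hne : Nonempty (Fin N × Bool) := ⟨h₁.2.choose, true⟩
  have hconn : IsPreconnected ({0}ᶜ : Set (ℝ × ℝ)) :=
    (isConnected_compl_singleton_of_one_lt_rank (by simp; norm_num) (0 : ℝ × ℝ)).isPreconnected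
  obtain ⟨w, hw0, ⟨i, hi, b, hmax⟩, j, hj, b', hmax'⟩ :=
    isPreconnected_closed_iff.1 hconn (P U) (P Uᶜ) (hclosed _) (hclosed _) (fun w _ => by
      obtain ⟨k, -, hk⟩ := Finset.exists_max_image Finset.univ (fun k => r k w)
        Finset.univ_nonempty
      by_cases hkU : k.1 ∈ U
      · exact Or.inl ⟨k.1, hkU, k.2, fun l => hk l (Finset.mem_univ l)⟩
      · exact Or.inr ⟨k.1, Finset.mem_compl.2 hkU, k.2, fun l => hk l (Finset.mem_univ l)⟩)
      ⟨w₁, hmem _ _ h₁⟩ ⟨w₂, hmem _ _ h₂⟩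
  set d := w.1 • u + w.2 • v with hd
  set R := r (i, b) w with hR
  have hRj : r (j, b') w = R := le_antisymm (hmax _) (hmax' _)
  have hRpos : 0 < R := by
    obtain ⟨l, hl⟩ : ∃ l, ν l ⬝ᵥ d ≠ 0 := by
      by_contra! h
      exact hw0 (hind w (hν.span d h))
    obtain ⟨c, hc⟩ := exists_sgn (ν l ⬝ᵥ d)
    refine lt_of_lt_of_le ?_ (hmax (l, c))
    simp only [hr]
    rw [hc]
    exact div_pos (abs_pos.2 hl) (hden (l, c))
  have hpt : ∀ k : Fin N × Bool, sgn k.2 * (ν k.1 ⬝ᵥ (p + R⁻¹ • d))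
      = sgn k.2 * (ν k.1 ⬝ᵥ p) + r k w / R * (1 - sgn k.2 * (ν k.1 ⬝ᵥ p)) := fun k => by
    have := hden k
    simp only [hr, hd, dotProduct_add, dotProduct_smul, smul_eq_mul]
    field_simp
  have hbody : p + R⁻¹ • d ∈ body ν 1 := fun k => by
    obtain ⟨c, hc⟩ := exists_sgn (ν k ⬝ᵥ (p + R⁻¹ • d))
    rw [← hc, Pi.one_apply, hpt (k, c)]
    have h1 : r (k, c) w / R ≤ 1 := (div_le_one hRpos).2 (hmax _)
    have h2 := mul_le_mul_of_nonneg_right h1 (hden (k, c)).le
    simp only at h2 ⊢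
    linarith
  have htop : ∀ k : Fin N × Bool, r k w = R → |ν k.1 ⬝ᵥ (p + R⁻¹ • d)| = 1 := fun k hk => by
    have h1 : sgn k.2 * (ν k.1 ⬝ᵥ (p + R⁻¹ • d)) = 1 := by
      rw [hpt k, hk, div_self hRpos.ne']
      ring
    exact le_antisymm (hbody k.1) (h1.symm.le.trans sgn_mul_le)
  refine hsep (R⁻¹ * w.1, R⁻¹ * w.2) ?_
  have e : (R⁻¹ * w.1) • u + (R⁻¹ * w.2) • v = R⁻¹ • d := by
    rw [hd, smul_add, smul_smul, smul_smul]
  simp only [e]
  exact ⟨⟨hbody, i, hi, htop (i, b) rfl⟩, hbody, j, hj, htop (j, b') hRj⟩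

theorem exists_third : ∀ a m : Fin 3, a ≠ m →
    ∃ b, b ≠ a ∧ b ≠ m ∧ ∀ k, k = a ∨ k = m ∨ k = b := by
  decide

/-- The value of the functional `x ↦ x a - q x m`. -/
def ev (a m : Fin 3) (q : ℝ) (x : V3) : ℝ := x a - q * x m

/-- Some point of the colour `W` has value `t`. -/
def Hit (ν : Fin N → V3) (W : Finset (Fin N)) (a m : Fin 3) (q t : ℝ) : Prop :=
  ∃ x, On ν W x ∧ ev a m q x = t

/-- In round position the facets stay below the norm. -/
theorem abs_dot_le (hR : Round ν) (i : Fin N) (x : V3) : |ν i ⬝ᵥ x| ≤ ‖x‖ := by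
  rcases eq_or_ne x 0 with rfl | hx
  · simp
  have hn : 0 < ‖x‖ := norm_pos_iff.2 hx
  have := hR.1 (‖x‖⁻¹ • x) (by rw [norm_smul, norm_inv, norm_norm, inv_mul_cancel₀ hn.ne']) i
  rwa [dotProduct_smul, smul_eq_mul, abs_mul, abs_inv, abs_of_pos hn, Pi.one_apply,
    inv_mul_le_iff₀ hn, mul_one] at this

theorem not_hit_both (hν : Fam ν) (hR : Round ν) (U : Finset (Fin N)) {a m : Fin 3} (ham : a ≠ m)
    {q t : ℝ} (ht : |t| < 1)
    (hgood : ∀ x, On ν U x → On ν Uᶜ x → ev a m q x ≠ t) :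
    ¬(Hit ν U a m q t ∧ Hit ν Uᶜ a m q t) := by
  rintro ⟨⟨x, hx, hxt⟩, ⟨y, hy, hyt⟩⟩
  obtain ⟨b, hba, hbm, hall⟩ := exists_third a m ham
  set p : V3 := Pi.single a t with hp_def
  set u : V3 := Pi.single m 1 + Pi.single a q with hu_def
  set v : V3 := Pi.single b 1 with hv_def
  have hcoord : ∀ z : V3, ev a m q z = t → z = p + (z m • u + z b • v) := by
    intro z hz
    ext k
    rcases hall k with rfl | rfl | rfl
    · simp [p, u, v, ham, hba.symm]
      simp only [ev] at hz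
      linarith
    · simp [p, u, v, ham.symm, hbm.symm]
    · simp [p, u, v, hba, hbm]
  have hval : ∀ w : ℝ × ℝ, ev a m q (p + (w.1 • u + w.2 • v)) = t := fun w => by
    simp [ev, p, u, v, ham, ham.symm, hba.symm, hbm.symm]
    ring
  refine section_colour hν (p := p) (u := u) (v := v) (fun i => ?_) (fun w hw => ?_) U
    (fun w hw => hgood _ hw.1 hw.2 (hval w)) (w₁ := (x m, x b)) (w₂ := (y m, y b))
    (by rw [← hcoord x hxt]; exact hx) (by rw [← hcoord y hyt]; exact hy)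
  · exact (abs_dot_le hR i p).trans_lt (by rw [hp_def, Pi.norm_single]; exact ht)
  · have h1 := congrFun hw m
    have h2 := congrFun hw b
    simp [u, v, ham.symm, hbm.symm, hba, hbm] at h1 h2
    exact Prod.ext h1 h2

/-- Two planes through inner points have a common boundary point. -/
theorem meet (hR : Round ν) {a m : Fin 3} (ham : a ≠ m) {q t t' : ℝ} (hq : |q| ≤ 1)
    (ht : |t| + |t'| < 1) :
    ∃ x, On ν Finset.univ x ∧ ev a m q x = t ∧ x m = t' := by
  obtain ⟨b, hba, hbm, hall⟩ := exists_third a m ham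
  set p : V3 := Pi.single m t' + Pi.single a (t + q * t') with hp
  set v : V3 := Pi.single b 1 with hv
  set S : Set ℝ := {s | p + s • v ∈ body ν 1} with hS
  have hqt : |q * t'| ≤ |t'| := by
    rw [abs_mul]
    exact mul_le_of_le_one_left (abs_nonneg _) hq
  have hp1 : ‖p‖ ≤ |t| + |t'| := (pi_norm_le_iff_of_nonneg (by positivity)).2 fun k => by
    rw [Real.norm_eq_abs]
    rcases hall k with rfl | rfl | rfl
    · simp [p, ham]
      linarith [abs_add_le t (q * t')]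
    · simp [p, ham.symm]
    · simp [p, hba, hbm]
      positivity
  have h0 : (0 : ℝ) ∈ S := fun i => by
    simpa using (abs_dot_le hR i p).trans (hp1.trans ht.le)
  have hbdd : BddAbove S := ⟨3, fun s hs => by
    have := (norm_le_pi_norm (p + s • v) b).trans (hR.2 _ hs)
    simp [p, v, hba, hbm] at this
    exact (le_abs_self s).trans this⟩
  have hcl : IsClosed S := by
    have e : S = ⋂ i, {s : ℝ | |ν i ⬝ᵥ (p + s • v)| ≤ 1} := by
      ext s
      simp [S, body]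
    rw [e]
    exact isClosed_iInter fun i => isClosed_le (by fun_prop) continuous_const
  have hmem := hcl.csSup_mem ⟨0, h0⟩ hbdd
  refine ⟨p + sSup S • v, ⟨hmem, ?_⟩, ?_, ?_⟩
  · by_contra hno
    push Not at hno
    have hlt : ∀ᶠ s in 𝓝 (sSup S), s ∈ S := by
      have h1 : ∀ i, ∀ᶠ s in 𝓝 (sSup S), |ν i ⬝ᵥ (p + s • v)| < 1 := fun i => ?_
      · exact (eventually_all.2 h1).mono fun s hs i => (hs i).le
      refine (Continuous.tendsto (by fun_prop : Continuous fun s => |ν i ⬝ᵥ (p + s • v)|) _).eventually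
        (eventually_lt_nhds ((hmem i).lt_of_ne (hno i (Finset.mem_univ i))))
    obtain ⟨δ, hδ, hball⟩ := Metric.eventually_nhds_iff.1 hlt
    have := le_csSup hbdd (hball (y := sSup S + δ / 2) (by simp [abs_of_pos hδ, hδ]))
    linarith
  · simp [ev, p, v, ham, ham.symm, hba.symm, hbm.symm]
  · simp [p, v, ham.symm, hbm.symm]

end

end Vale.Agent.P227.Lp.Cut
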