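import Vale.Agent.P227.Lp.Cut.Sections

/-!
# P227: the cone over the boundary points of small projection

A set of boundary points whose values in two coordinates lie in small sets spans a cone whose volume
is bounded by the product of the lengths.
-/

namespace Vale.Agent.P227.Lp.Cut

open MeasureTheory Set Filter Topology Matrix Function
open scoped ENNReal Pointwise

noncomputable section

variable {N : ℕ} {ν : Fin N → V3}

/-- Coordinates adapted to the values `x (m+1) - q x m`, `x (m+2) - q' x m`, `x m`. -/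
def chart (m : Fin 3) (q q' : ℝ) : V3 →ₗ[ℝ] V3 :=
  Matrix.toLin' (Matrix.of fun i : Fin 3 =>
    if i = m then ![0, 0, 1] else if i = m + 1 then ![1, 0, q] else ![0, 1, q'])

theorem chart_apply (m : Fin 3) (q q' : ℝ) (y : V3) (i : Fin 3) :
    chart m q q' y i
      = if i = m then y 2 else if i = m + 1 then y 0 + q * y 2 else y 1 + q' * y 2 := by
  rw [chart, Matrix.toLin'_apply]
  simp only [Matrix.mulVec, dotProduct, Fin.sum_univ_three, Matrix.of_apply]
  fin_cases m <;> fin_cases i <;> simp [Fin.ext_iff]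

theorem abs_det_chart (m : Fin 3) (q q' : ℝ) : |LinearMap.det (chart m q q')| = 1 := by
  rw [chart, LinearMap.det_toLin', Matrix.det_fin_three]
  fin_cases m <;>
    simp +decide [Matrix.of_apply]

theorem chart_inv (m : Fin 3) (q q' : ℝ) (z : V3) :
    chart m q q' ![ev (m + 1) m q z, ev (m + 2) m q' z, z m] = z := by
  ext i
  rw [chart_apply]
  fin_cases m <;> fin_cases i <;> simp [ev, Fin.ext_iff]

/-- The cone over a set. -/
def cone (X : Set V3) : Set V3 := {z | ∃ x ∈ X, ∃ r ∈ Ioc (0 : ℝ) 1, z = r • x}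

theorem insertNth_two (s : ℝ) (w : Fin 2 → ℝ) :
    (Fin.insertNth (2 : Fin 3) s w : V3) = ![w 0, w 1, s] := by
  ext i
  fin_cases i <;> rfl

/-- Along a line through a deep point, the thin shell has short traces. -/
theorem trace_le {p d : V3} (hp : ∀ i, |ν i ⬝ᵥ p| ≤ 2 / 5) {ε : ℝ}
    {s₁ s₂ : ℝ} (hθ : ∃ θ ∈ Icc (0 : ℝ) 1, s₁ = θ * s₂)
    (h₁ : ∃ i, 1 - ε ≤ |ν i ⬝ᵥ (p + s₁ • d)|) (h₂ : p + s₂ • d ∈ body ν 1) (h3 : |s₂| ≤ 3) :
    |s₂ - s₁| ≤ 5 * ε := by
  obtain ⟨θ, ⟨hθ0, hθ1⟩, rfl⟩ := hθ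
  obtain ⟨i, hi⟩ := h₁
  have e : ν i ⬝ᵥ (p + (θ * s₂) • d) = (1 - θ) * (ν i ⬝ᵥ p) + θ * (ν i ⬝ᵥ (p + s₂ • d)) := by
    simp only [dotProduct_add, dotProduct_smul, smul_eq_mul]
    ring
  rw [e] at hi
  have hA : |(1 - θ) * (ν i ⬝ᵥ p)| ≤ (1 - θ) * (2 / 5) := by
    rw [abs_mul, abs_of_nonneg (sub_nonneg.2 hθ1)]
    exact mul_le_mul_of_nonneg_left (hp i) (sub_nonneg.2 hθ1)
  have hB : |θ * (ν i ⬝ᵥ (p + s₂ • d))| ≤ θ := by
    rw [abs_mul, abs_of_nonneg hθ0]
    exact mul_le_of_le_one_right hθ0 (h₂ i)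
  have h4 := hi.trans ((abs_add_le _ _).trans (add_le_add hA hB))
  rw [show s₂ - θ * s₂ = (1 - θ) * s₂ by ring, abs_mul, abs_of_nonneg (sub_nonneg.2 hθ1)]
  nlinarith [abs_nonneg s₂]

/-- The cone bound. -/
theorem volume_cone_le (h1 : Calc1 ν) (hR : Round ν) (m : Fin 3) {q q' : ℝ}
    {X : Set V3} (hX : ∀ x ∈ X, On ν Finset.univ x)
    (hv : ∀ x ∈ X, |ev (m + 1) m q x| ≤ 2 / 5 ∧ |ev (m + 2) m q' x| ≤ 2 / 5)
    (B₁ B₂ : ℝ → Set ℝ) {L c : ℝ} (hL : 0 ≤ L) (hc : 0 ≤ c)
    (hB₁ : ∀ ε, 0 ≤ ε → IsClosed (B₁ ε) ∧ volume (B₁ ε) ≤ ENNReal.ofReal (L + c * ε))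
    (hB₂ : ∀ ε, 0 ≤ ε → IsClosed (B₂ ε) ∧ volume (B₂ ε) ≤ ENNReal.ofReal (L + c * ε))
    (hval : ∀ x ∈ X, ∀ ε r, 0 ≤ ε → r ∈ Icc (1 - ε) 1 → 0 ≤ r →
      r * ev (m + 1) m q x ∈ B₁ ε ∧ r * ev (m + 2) m q' x ∈ B₂ ε) :
    (volume (cone X)).toReal ≤ 5 * L ^ 2 := by
  have hsub : cone X ⊆ body ν 1 := by
    rintro z ⟨x, hx, r, hr, rfl⟩ i
    rw [dotProduct_smul, smul_eq_mul, abs_mul, abs_of_pos hr.1]
    exact (mul_le_of_le_one_left (abs_nonneg _) hr.2).trans ((hX x hx).1 i)
  have hfin : volume (cone X) ≠ ⊤ := ((measure_mono hsub).trans_lt (h1.compact 1).measure_lt_top).ne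
  have key : ∀ ε : ℝ, 0 < ε → ε ≤ 1 / 4 → (volume (cone X)).toReal ≤ 5 * (L + c * ε) ^ 2 := by
    intro ε hε hε4
    set T : Set V3 := {y | y 0 ∈ B₁ ε ∩ Icc (-(2 / 5)) (2 / 5) ∧ y 1 ∈ B₂ ε ∩ Icc (-(2 / 5)) (2 / 5) ∧
      chart m q q' y ∈ body ν 1 ∧ ∃ i, 1 - ε ≤ |ν i ⬝ᵥ chart m q q' y|} with hT
    have hTc : IsClosed T := by
      have hcont : Continuous (chart m q q') := LinearMap.continuous_of_finiteDimensional _
      have e : T = ((fun y : V3 => y 0) ⁻¹' (B₁ ε ∩ Icc (-(2 / 5)) (2 / 5)))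
          ∩ (((fun y : V3 => y 1) ⁻¹' (B₂ ε ∩ Icc (-(2 / 5)) (2 / 5)))
          ∩ ((chart m q q' ⁻¹' body ν 1) ∩ ⋃ i, {y | 1 - ε ≤ |ν i ⬝ᵥ chart m q q' y|})) := by
        ext y
        simp [T]
      rw [e]
      refine (((hB₁ ε hε.le).1.inter isClosed_Icc).preimage (continuous_apply 0)).inter
        ((((hB₂ ε hε.le).1.inter isClosed_Icc).preimage (continuous_apply 1)).inter
        (((h1.compact 1).isClosed.preimage hcont).inter
          (isClosed_iUnion_of_finite fun i => isClosed_le continuous_const ?_)))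
      fun_prop
    -- the traces
    have hslice : ∀ w : Fin 2 → ℝ, volume {s : ℝ | (Fin.insertNth (2 : Fin 3) s w : V3) ∈ T}
        ≤ (Set.univ.pi ![B₁ ε, B₂ ε]).indicator (fun _ => ENNReal.ofReal (10 * ε)) w := by
      intro w
      set S := {s : ℝ | (Fin.insertNth (2 : Fin 3) s w : V3) ∈ T}
      by_cases hne : S.Nonempty
      swap
      · simp [not_nonempty_iff_eq_empty.1 hne]
      obtain ⟨s₀, hs₀⟩ := hne
      obtain ⟨⟨b1, w1⟩, ⟨b2, w2⟩, -, -⟩ := hs₀
      simp only [insertNth_two, Matrix.cons_val_zero, Matrix.cons_val_one] at b1 w1 b2 w2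
      rw [indicator_of_mem (show w ∈ Set.univ.pi ![B₁ ε, B₂ ε] from fun k _ => by
        fin_cases k <;> assumption)]
      set p := chart m q q' ![w 0, w 1, 0]
      set d := chart m q q' ![0, 0, 1]
      have hline : ∀ s : ℝ, chart m q q' ![w 0, w 1, s] = p + s • d := fun s => by
        rw [← map_smul, ← map_add]
        congr 1
        ext k
        fin_cases k <;> simp
      have hp : ∀ i, |ν i ⬝ᵥ p| ≤ 2 / 5 := fun i => (abs_dot_le hR i p).trans
        ((pi_norm_le_iff_of_nonneg (by norm_num)).2 fun k => by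
          simp only [p, Real.norm_eq_abs, chart_apply]
          split_ifs <;> simp
          · norm_num
          · exact abs_le.2 w1
          · exact abs_le.2 w2)
      have hS : ∀ s ∈ S, p + s • d ∈ body ν 1 ∧ (∃ i, 1 - ε ≤ |ν i ⬝ᵥ (p + s • d)|) ∧ |s| ≤ 3 := by
        intro s hs
        obtain ⟨-, -, hb, hi⟩ := hs
        rw [insertNth_two] at hb hi
        have h3 := (norm_le_pi_norm (chart m q q' ![w 0, w 1, s]) m).trans (hR.2 _ hb)
        rw [chart_apply, if_pos rfl] at h3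
        simp at h3
        rw [hline] at hb hi
        exact ⟨hb, hi, h3⟩
      have hsign : ∀ J : Set ℝ, (J = Ici 0 ∨ J = Iic 0) →
          volume (S ∩ J) ≤ ENNReal.ofReal (5 * ε) := by
        intro J hJ
        refine (Real.volume_le_diam _).trans (Metric.ediam_le fun s₁ hs₁ s₂ hs₂ => ?_)
        rw [edist_dist, Real.dist_eq]
        refine ENNReal.ofReal_le_ofReal ?_
        have main : ∀ a b, a ∈ S ∩ J → b ∈ S ∩ J → |a| ≤ |b| → |b - a| ≤ 5 * ε := by
          intro a b ha hb hab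
          refine trace_le hp (d := d) ⟨if b = 0 then 0 else a / b, ?_, ?_⟩
            (hS a ha.1).2.1 (hS b hb.1).1 (hS b hb.1).2.2
          · split_ifs with hb0
            · simp
            refine ⟨?_, (le_abs_self _).trans (by rw [abs_div]; exact div_le_one_of_le₀ hab (abs_nonneg _))⟩
            rcases hJ with rfl | rfl
            · exact div_nonneg ha.2 hb.2
            · exact div_nonneg_of_nonpos ha.2 hb.2
          · split_ifs with hb0
            · subst hb0
              simp only [abs_zero, abs_nonpos_iff] at hab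
              simp [hab]
            · field_simp
        rcases le_total |s₁| |s₂| with h | h
        · rw [abs_sub_comm]
          exact main _ _ hs₁ hs₂ h
        · exact main _ _ hs₂ hs₁ h
      have hcov : S = (S ∩ Ici 0) ∪ (S ∩ Iic 0) := by
        rw [← inter_union_distrib_left, Ici_union_Iic, inter_univ]
      rw [hcov]
      refine (measure_union_le _ _).trans ((add_le_add (hsign _ (Or.inl rfl))
        (hsign _ (Or.inr rfl))).trans_eq ?_)
      rw [← ENNReal.ofReal_add (by positivity) (by positivity)]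
      congr 1
      ring
    have hTvol : volume T ≤ ENNReal.ofReal (10 * ε * (L + c * ε) ^ 2) := by
      have hp := volume_preserving_piFinSuccAbove (fun _ : Fin 3 => ℝ) 2
      rw [← (hp.symm _).measure_preimage hTc.measurableSet.nullMeasurableSet, Measure.volume_eq_prod,
        Measure.prod_apply_symm (hTc.measurableSet.preimage (MeasurableEquiv.measurable _))]
      refine (lintegral_mono hslice).trans ?_
      rw [lintegral_indicator_const (MeasurableSet.univ_pi fun k => ?_)]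
      · rw [volume_pi_pi, Fin.prod_univ_two]
        simp only [Matrix.cons_val_zero, Matrix.cons_val_one]
        refine (mul_le_mul' le_rfl (mul_le_mul' (hB₁ ε hε.le).2 (hB₂ ε hε.le).2)).trans_eq ?_
        have h0 : 0 ≤ L + c * ε := by positivity
        rw [← ENNReal.ofReal_mul h0, ← ENNReal.ofReal_mul (by positivity)]
        congr 1
        ring
      · fin_cases k
        · exact (hB₁ ε hε.le).1.measurableSet
        · exact (hB₂ ε hε.le).1.measurableSet
    have hcov : cone X ⊆ chart m q q' '' T ∪ (1 - ε) • cone X := by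
      rintro z ⟨x, hx, r, ⟨hr0, hr1⟩, rfl⟩
      rcases le_or_gt (1 - ε) r with hr | hr
      · refine Or.inl ⟨_, ?_, chart_inv m q q' _⟩
        obtain ⟨i, -, hi⟩ := (hX x hx).2
        have e : ∀ a (s : ℝ), ev a m s (r • x) = r * ev a m s x := fun a s => by
          simp [ev]
          ring
        have hle : ∀ v : ℝ, |v| ≤ 2 / 5 → r * v ∈ Icc (-(2 / 5)) (2 / 5) := fun v hv => by
          refine abs_le.1 ?_
          rw [abs_mul, abs_of_pos hr0]
          exact (mul_le_of_le_one_left (abs_nonneg _) hr1).trans hv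
        refine ⟨?_, ?_, ?_, i, ?_⟩
        · simpa [e] using ⟨(hval x hx ε r hε.le ⟨hr, hr1⟩ hr0.le).1, hle _ (hv x hx).1⟩
        · simpa [e] using ⟨(hval x hx ε r hε.le ⟨hr, hr1⟩ hr0.le).2, hle _ (hv x hx).2⟩
        · rw [chart_inv]
          exact hsub ⟨x, hx, r, ⟨hr0, hr1⟩, rfl⟩
        · rw [chart_inv, dotProduct_smul, smul_eq_mul, abs_mul, hi, mul_one, abs_of_pos hr0]
          exact hr
      · have h1e : 0 < 1 - ε := by linarith
        refine Or.inr ⟨(r / (1 - ε)) • x, ⟨x, hx, r / (1 - ε),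
          ⟨div_pos hr0 h1e, (div_le_one h1e).2 hr.le⟩, rfl⟩, ?_⟩
        simp only [smul_smul]
        rw [mul_div_cancel₀ _ h1e.ne']
    have hA : 0 ≤ 10 * ε * (L + c * ε) ^ 2 := by positivity
    have h13 : (0 : ℝ) ≤ (1 - ε) ^ 3 := pow_nonneg (by linarith) 3
    have hmeas : volume (cone X) ≤ ENNReal.ofReal (10 * ε * (L + c * ε) ^ 2)
        + ENNReal.ofReal ((1 - ε) ^ 3) * volume (cone X) := by
      refine (measure_mono hcov).trans ((measure_union_le _ _).trans (add_le_add ?_ (le_of_eq ?_)))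
      · rw [Measure.addHaar_image_linearMap, abs_det_chart, ENNReal.ofReal_one, one_mul]
        exact hTvol
      · rw [Measure.addHaar_smul_of_nonneg volume (by linarith : (0 : ℝ) ≤ 1 - ε),
          Module.finrank_fintype_fun_eq_card, Fintype.card_fin]
    have h := ENNReal.toReal_mono (ENNReal.add_ne_top.2 ⟨ENNReal.ofReal_ne_top,
      ENNReal.mul_ne_top ENNReal.ofReal_ne_top hfin⟩) hmeas
    rw [ENNReal.toReal_add ENNReal.ofReal_ne_top (ENNReal.mul_ne_top ENNReal.ofReal_ne_top hfin),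
      ENNReal.toReal_mul, ENNReal.toReal_ofReal hA, ENNReal.toReal_ofReal h13] at h
    set V := (volume (cone X)).toReal
    have hV : 0 ≤ V := ENNReal.toReal_nonneg
    have h2 : 2 * ε ≤ 1 - (1 - ε) ^ 3 := by nlinarith [mul_pos hε hε, mul_pos (mul_pos hε hε) hε]
    have h3 : 2 * ε * V ≤ 2 * ε * (5 * (L + c * ε) ^ 2) := by
      nlinarith [mul_le_mul_of_nonneg_right h2 hV]
    exact le_of_mul_le_mul_left h3 (by linarith)
  have hlim : Tendsto (fun ε : ℝ => 5 * (L + c * ε) ^ 2) (𝓝[>] 0) (𝓝 (5 * L ^ 2)) := by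
    have hcont : Continuous fun ε : ℝ => 5 * (L + c * ε) ^ 2 := by fun_prop
    simpa using (hcont.tendsto 0).mono_left nhdsWithin_le_nhds
  refine ge_of_tendsto hlim ?_
  filter_upwards [Ioo_mem_nhdsGT (by norm_num : (0 : ℝ) < 1 / 4)] with ε hε
  exact key ε hε.1 hε.2.le

end

end Vale.Agent.P227.Lp.Cut
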